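import Vale.Agent.P155.BD.Iface
import Vale.Agent.P155.H878.TightIface

/-!
# P155, block BD: the statements of the conformal route (owners in the P155 notes)

All distances are in lattice units (`cf x` = centre of the face `x`, `UU T` = open polygon).
-/

namespace Vale.Agent.P155.BD

open Complex Metric Set Filter Skel
open scoped ComplexConjugate

/-- distance to the complement of the polygon -/
noncomputable def dU (T : Temp) (z : ℂ) : ℝ := infDist z (UU T)ᶜ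

/-- [RMEX] Riemann maps exist, with any base point. -/
def RMEX : Prop := ∀ T : Temp, ∀ z₀ ∈ UU T, ∃ f φ, RM T f φ ∧ f 0 = z₀

/-- [SP] Schwarz–Pick: near points have bounded hyperbolic distance. -/
def SP : Prop := ∀ T f φ, RM T f φ → ∀ z ∈ UU T, ∀ z', 2 * ‖z - z'‖ ≤ dU T z → HH (φ z) (φ z') ≤ 2

/-- [KO] Koebe distortion. -/
def KO : Prop := ∀ A : ℝ, ∃ C : ℝ, ∀ T f φ, RM T f φ → ∀ w ∈ ball (0 : ℂ) 1, ∀ w' ∈ ball (0 : ℂ) 1,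
  HH w w' ≤ A → ‖f w - f w'‖ ≤ C * dU T (f w)

/-- [HGT] polynomial lower bound of the distance to the boundary. -/
def HGT : Prop := ∃ c : ℝ, 0 < c ∧ ∀ T f φ, RM T f φ → ∀ w ∈ ball (0 : ℂ) 1,
  c * (1 - ‖w‖) ^ 3 * dU T (f 0) ≤ dU T (f w)

/-- [STAT] points at macroscopic distance from the boundary are not close to the boundary of the
disc, uniformly in `n`. -/
def STAT : Prop := ∀ Ω : Set ℂ, IsOpen Ω → Bornology.IsBounded Ω → SimplyConnectedSpace Ω →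
  ∀ S : TempApprox Ω, ∀ z₀ ∈ Ω, ∀ r : ℝ, 0 < r → ∃ ε : ℝ, 0 < ε ∧ ∀ᶠ n in atTop,
    ∀ f φ, RM (S.T n) f φ → f 0 = (z₀ - S.a n) / S.δ n → ∀ z ∈ UU (S.T n),
      r / S.δ n ≤ dU (S.T n) z → ε ≤ 1 - ‖φ z‖

/-- some inner face of the loop `L` is in the hyperbolic ball around `w` -/
def VisW (φ : ℂ → ℂ) (A : ℝ) (ω : Conf) (L : Set Pt) (w : ℂ) : Prop :=
  ∃ x, Inn ω L x ∧ HH (φ (cf x)) w ≤ A

/-- point of the disc at height `t` over the boundary point `e^{iα}` -/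
noncomputable def pz (α t : ℝ) : ℂ := (1 - t : ℝ) * Complex.exp (α * I)

/-- net of the boundary of the Carleson box `{|arg w - α| ≤ r, 1 - |w| ≤ r}`: one point per dyadic
height on the two sides, and the top. -/
def gate (α r : ℝ) : Set ℂ :=
  {w | ∃ j : ℕ, w = pz (α + r) (r / 2 ^ j) ∨ w = pz (α - r) (r / 2 ^ j)} ∪ {pz α r}

/-- [ARM] one loop crosses two concentric gates. Good pairs only (924's correction): the small gate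
sits at a box of size `≥ R^(1-a₀)`, or the gates are at distance `≥ C₁ log R`. -/
def ARM : Prop := ∃ a₀ : ℝ, 0 < a₀ ∧ a₀ < 1 ∧ ∀ A : ℝ, ∃ c C C₁ : ℝ, 0 < c ∧ 0 ≤ C ∧ 0 ≤ C₁ ∧
  ∀ (R : ℕ) (T : Temp), 1 ≤ R → Fits T R → ∀ f φ, RM T f φ → ∀ α r ρ : ℝ, 0 < r → 8 * r ≤ ρ →
    ρ ≤ 1 / 8 → ((R : ℝ) ^ (1 - a₀) ≤ dU T (f (pz α r)) ∨ C₁ * Real.log R ≤ Real.log (ρ / r)) →
    Pr T.V (fun ω => ∃ L ∈ Loops ω, ∃ w ∈ gate α r, ∃ w' ∈ gate α ρ,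
      VisW φ A ω L w ∧ VisW φ A ω L w') ≤ C * (r / ρ) ^ c

/-- [COLL] collar: one loop crosses two radii at angles `α ± r`, both below the height `τ`. -/
def COLL : Prop := ∃ a₀ : ℝ, 0 < a₀ ∧ a₀ < 1 ∧ ∀ A : ℝ, ∃ c C : ℝ, 0 < c ∧ 0 ≤ C ∧
  ∀ r τ : ℝ, 0 < τ → τ ≤ r → r ≤ 1 / 8 → ∃ R₀ : ℕ, ∀ (R : ℕ) (T : Temp), R₀ ≤ R → Fits T R →
    ∀ f φ, RM T f φ → (R : ℝ) ^ (1 - a₀) ≤ dU T (f 0) → ∀ α : ℝ,
    Pr T.V (fun ω => ∃ L ∈ Loops ω, ∃ j j' : ℕ, VisW φ A ω L (pz (α + r) (τ / 2 ^ j)) ∧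
      VisW φ A ω L (pz (α - r) (τ / 2 ^ j'))) ≤ C * (τ / r) ^ c

/-- [CROSSING] (deterministic, disc) a discrete chain in the disc with hyperbolic steps bounded by
`A₀`, with one point inside the Carleson box and one point outside, has a point near the gate. -/
def GATE : Prop := ∀ A₀ : ℝ, ∃ A : ℝ, ∀ α r : ℝ, 0 < r → r ≤ 1 / 8 → ∀ (m : ℕ) (ζ : ℕ → ℂ),
  (∀ i ≤ m, ζ i ∈ ball (0 : ℂ) 1) → (∀ i < m, HH (ζ i) (ζ (i + 1)) ≤ A₀) →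
  (∃ s t : ℝ, |s - α| ≤ r ∧ 0 < t ∧ t ≤ r ∧ ζ 0 = pz s t) →
  (¬ ∃ s t : ℝ, |s - α| ≤ r ∧ 0 < t ∧ t ≤ r ∧ ζ m = pz s t) →
  ∃ i ≤ m, ∃ w ∈ gate α r, HH (ζ i) w ≤ A

/-- [INN] the inner faces of a strand contain a chain of adjacent faces. -/
def INN : Prop := ∀ (T : Temp), ∀ ω ∈ DD T.V, ∀ v, ω.1 v ≠ ω.2 v → ∀ m : ℕ, ∃ (M : ℕ) (g : ℕ → Pt),
  (∀ i ≤ M, Inn ω (comp ω v) (g i) ∧ ∃ j ≤ m, (SW.suc ω)^[j] v ∈ box (g i) 1) ∧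
  (∀ i < M, Adj (g i) (g (i + 1))) ∧ v ∈ box (g 0) 1 ∧ (SW.suc ω)^[m] v ∈ box (g M) 1

end Vale.Agent.P155.BD
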