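import Vale.Agent.P155.BD.Props
import Vale.Agent.P155.T733.Collar
import Vale.Agent.P155.T733.Fjord2

/-!
# P155, block BD: the exact inputs of the final assembly (B8)

All sizes are in lattice units. `dbox`, `boxes`, `anc`, `TrOK`, `EvA`, `EvC` are from `T733`.
-/

namespace Vale.Agent.P155.BD

open Complex Metric Set Filter Skel T733

/-- union of the segments between the centres of equal or adjacent faces of `S` -/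
def cseg (S : Set Pt) : Set ℂ :=
  {z | ∃ x ∈ S, ∃ y ∈ S, (x = y ∨ Adj x y) ∧ z ∈ segment ℝ (cf x) (cf y)}

/-- the trace of the loop `L` in the disc -/
def trc (φ : ℂ → ℂ) (ω : Conf) (L : Set Pt) : Set ℂ := φ '' cseg {x | Inn ω L x}

/-- centre of the dyadic box `K` -/
noncomputable def cen (K : ℕ × ℕ) : ℂ :=
  ((1 - 3 / 4 * (1 / 2) ^ K.1 : ℝ) : ℂ) * ee (((K.2 : ℝ) + 1 / 2) * (1 / 2) ^ K.1)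

/-- size of the dyadic box `K`, in lattice units -/
noncomputable def bsz (T : Temp) (f : ℂ → ℂ) (K : ℕ × ℕ) : ℝ := dU T (f (cen K))

/-- [ARMB] (801) the arm bound for all good pairs `(K, anc K k)`. -/
def ARMB : Prop := ∃ a₀ c C C₁ : ℝ, 0 < a₀ ∧ a₀ < 1 ∧ 0 < c ∧ 0 ≤ C ∧ 0 ≤ C₁ ∧ ∃ R₀ : ℕ,
  ∀ (R : ℕ) (T : Temp), R₀ ≤ R → Fits T R → ∀ f φ, RM T f φ → ∀ N, TrOK T.V (trc φ) N →
    ∀ K ∈ boxes N, ∀ k ≤ K.1, ((R : ℝ) ^ (1 - a₀) ≤ bsz T f K ∨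
      (R : ℝ) ^ (1 - a₀) ≤ bsz T f (anc K k) ∨ C₁ * Real.log R ≤ k) →
    Pr T.V (EvA (trc φ) K k) ≤ C * Real.exp (-(c * k))

/-- [COLB] (801) the collar. -/
def COLB : Prop := ∃ a₀ : ℝ, 0 < a₀ ∧ a₀ < 1 ∧ ∀ e ε : ℝ, 0 < e → 0 < ε → ∃ τ : ℝ, 0 < τ ∧
  ∃ R₀ : ℕ, ∀ (R : ℕ) (T : Temp), R₀ ≤ R → Fits T R → ∀ f φ, RM T f φ →
    (R : ℝ) ^ (1 - a₀) ≤ dU T (f 0) → ∀ N, TrOK T.V (trc φ) N →
    Pr T.V (EvC (trc φ) e τ) ≤ ε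

/-- [CHAIN] (276) the vertical chains above two points of the disc. -/
def CHAIN : Prop := ∃ C : ℝ, 0 < C ∧ ∀ T f φ, RM T f φ → ∀ I I' : ℕ × ℕ, I.2 < 2 ^ I.1 →
  I'.2 < 2 ^ I'.1 → ∀ z₁ ∈ dbox I, ∀ z₂ ∈ dbox I', ∃ m ≤ I.1, ∃ m' ≤ I'.1,
    (m = 0 ∨ 40 * (1 / 2) ^ (I.1 - m) ≤ ‖z₁ - z₂‖) ∧
    (m' = 0 ∨ 40 * (1 / 2) ^ (I'.1 - m') ≤ ‖z₁ - z₂‖) ∧
    ‖f z₁ - f z₂‖ ≤ C * (∑ i ∈ Finset.range (m + 1), bsz T f (anc I i) +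
      ∑ i ∈ Finset.range (m' + 1), bsz T f (anc I' i))

/-- [AREA] (276) -/
def AREA : Prop := ∃ C : ℝ, 0 < C ∧ ∀ (R : ℕ) (T : Temp), 1 ≤ R → Fits T R → ∀ f φ, RM T f φ →
  ∀ N, ∑ K ∈ boxes N, bsz T f K ^ 2 ≤ C * (R : ℝ) ^ 2

/-- [TRC] (354) the traces -/
def TRC : Prop := ∀ T f φ, RM T f φ → ∃ N₀, ∀ N ≥ N₀, TrOK T.V (trc φ) N

/-- [STRC] (354) the trace of a strand -/
def STRC : Prop := ∀ T f φ, RM T f φ → ∀ ω ∈ DD T.V, ∀ v, ω.1 v ≠ ω.2 v → ∀ m : ℕ,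
  comp ω v ∈ Loops ω ∧ ∃ G ⊆ trc φ ω (comp ω v), IsPreconnected G ∧
    (∀ w ∈ G, ∃ z ∈ UU T, φ z = w ∧ ∃ j ≤ m, dist z (Q1.pt 1 0 ((SW.suc ω)^[j] v)) ≤ 2) ∧
    ∀ j ≤ m, ∃ x ∈ T.faceSet, cf x ∈ UU T ∧ φ (cf x) ∈ G ∧
      dist (cf x) (Q1.pt 1 0 ((SW.suc ω)^[j] v)) ≤ 1

end Vale.Agent.P155.BD
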