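import Vale.Agent.P155.N924.Pair
import Vale.Agent.P155.FinalStmt

/-!
# P155, block BD: interface of the conformal route

* `cf x`: centre of the face `x` (lattice units), `UU T`: the open polygon.
* `RM T f φ`: `f : disc → UU T` is conformal with inverse `φ`.
* `HH w w'`: `cosh² (d/2)` for the hyperbolic distance `d` of the disc; `HH (x,z) ≤ 4 HH (x,y) HH (y,z)`.
* `dd T x y = log (4 HH (φ x) (φ y))`: the distance used in `COV`, `PAIR`.
-/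

namespace Vale.Agent.P155.BD

open Complex Metric Set
open scoped ComplexConjugate

/-- centre of the face `x` -/
noncomputable def cf (x : Pt) : ℂ := ((x.1 : ℝ) + 1 / 2 : ℝ) + ((x.2 : ℝ) + 1 / 2 : ℝ) * I

/-- the open polygon, in lattice units -/
def UU (T : Temp) : Set ℂ := interior (region 1 0 T.faceSet)

/-- `f : disc → UU T` is conformal and `φ` is its inverse. -/
structure RM (T : Temp) (f φ : ℂ → ℂ) : Prop where
  hf : DifferentiableOn ℂ f (ball 0 1)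
  maps : ∀ w ∈ ball (0 : ℂ) 1, f w ∈ UU T
  hφ : DifferentiableOn ℂ φ (UU T)
  maps' : ∀ z ∈ UU T, φ z ∈ ball (0 : ℂ) 1
  left : ∀ w ∈ ball (0 : ℂ) 1, φ (f w) = w
  right : ∀ z ∈ UU T, f (φ z) = z

/-- `cosh² (d/2)`, `d` the hyperbolic distance of `w, w'` in the disc -/
noncomputable def HH (w w' : ℂ) : ℝ := ‖1 - conj w * w'‖ ^ 2 / ((1 - ‖w‖ ^ 2) * (1 - ‖w'‖ ^ 2))

theorem one_sub_pos {w : ℂ} (h : ‖w‖ < 1) : 0 < 1 - ‖w‖ ^ 2 := by nlinarith [norm_nonneg w]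

theorem id1 (w w' : ℂ) : ‖1 - conj w * w'‖ ^ 2 = ‖w - w'‖ ^ 2 + (1 - ‖w‖ ^ 2) * (1 - ‖w'‖ ^ 2) := by
  have h1 : ((‖1 - conj w * w'‖ ^ 2 : ℝ) : ℂ) =
      ((‖w - w'‖ ^ 2 + (1 - ‖w‖ ^ 2) * (1 - ‖w'‖ ^ 2) : ℝ) : ℂ) := by
    push_cast
    rw [← Complex.mul_conj', ← Complex.mul_conj', ← Complex.mul_conj', ← Complex.mul_conj']
    simp only [map_sub, map_one, map_mul, Complex.conj_conj]
    ring
  exact_mod_cast h1

theorem norm_sub_le {w w' : ℂ} (h : ‖w‖ < 1) (h' : ‖w'‖ < 1) : ‖w - w'‖ ≤ ‖1 - conj w * w'‖ := by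
  have h1 := id1 w w'
  have h2 : 0 ≤ (1 - ‖w‖ ^ 2) * (1 - ‖w'‖ ^ 2) := by
    have := one_sub_pos h
    have := one_sub_pos h'
    positivity
  exact le_of_sq_le_sq (by linarith) (norm_nonneg _) |> fun h => h
where
  le_of_sq_le_sq {a b : ℝ} (h : a ^ 2 ≤ b ^ 2) (hb : 0 ≤ b) : a ≤ b := by
    nlinarith [abs_le_of_sq_le_sq' h hb]

theorem HH_comm (w w' : ℂ) : HH w w' = HH w' w := by
  unfold HH
  rw [id1, id1, norm_sub_rev]
  ring

theorem one_le_HH {w w' : ℂ} (h : ‖w‖ < 1) (h' : ‖w'‖ < 1) : 1 ≤ HH w w' := by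
  have h1 := one_sub_pos h
  have h2 := one_sub_pos h'
  unfold HH
  rw [le_div_iff₀ (by positivity), id1]
  nlinarith [sq_nonneg ‖w - w'‖]

theorem HH_tri {x y z : ℂ} (hx : ‖x‖ < 1) (hy : ‖y‖ < 1) (hz : ‖z‖ < 1) :
    HH x z ≤ 4 * HH x y * HH y z := by
  have h1 := one_sub_pos hx
  have h2 := one_sub_pos hy
  have h3 := one_sub_pos hz
  have key : ‖1 - conj x * z‖ * (1 - ‖y‖ ^ 2) ≤ 2 * (‖1 - conj x * y‖ * ‖1 - conj y * z‖) := by
    have e : (1 - conj x * z) * ((1 - ‖y‖ ^ 2 : ℝ) : ℂ) =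
        (1 - conj x * y) * (1 - conj y * z) - (conj x - conj y) * (z - y) := by
      push_cast
      rw [← Complex.mul_conj']
      ring
    have e1 : ‖1 - conj x * z‖ * (1 - ‖y‖ ^ 2) = ‖(1 - conj x * z) * ((1 - ‖y‖ ^ 2 : ℝ) : ℂ)‖ := by
      rw [norm_mul, Complex.norm_real, Real.norm_eq_abs, abs_of_pos h2]
    rw [e1, e]
    refine (norm_sub_le' _ _).trans ?_
    rw [norm_mul, norm_mul, ← map_sub, Complex.norm_conj]
    have a1 := norm_sub_le hx hy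
    have a2 := norm_sub_le hy hz
    rw [norm_sub_rev y z] at a2
    have := mul_le_mul a1 a2 (norm_nonneg _) (norm_nonneg _)
    linarith
  unfold HH
  rw [div_le_iff₀ (by positivity)]
  have e2 : 4 * (‖1 - conj x * y‖ ^ 2 / ((1 - ‖x‖ ^ 2) * (1 - ‖y‖ ^ 2))) *
      (‖1 - conj y * z‖ ^ 2 / ((1 - ‖y‖ ^ 2) * (1 - ‖z‖ ^ 2))) * ((1 - ‖x‖ ^ 2) * (1 - ‖z‖ ^ 2)) =
      (2 * (‖1 - conj x * y‖ * ‖1 - conj y * z‖)) ^ 2 / (1 - ‖y‖ ^ 2) ^ 2 := by
    field_simp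
    ring
  rw [e2, le_div_iff₀ (by positivity), ← mul_pow]
  exact pow_le_pow_left₀ (by positivity) key 2
where
  norm_sub_le' (a b : ℂ) : ‖a - b‖ ≤ ‖a‖ + ‖b‖ := _root_.norm_sub_le a b

open Classical in
/-- a Riemann map of the polygon (if there is one) -/
noncomputable def rmap (T : Temp) : ℂ → ℂ :=
  if h : ∃ φ : ℂ → ℂ, ∃ f, RM T f φ then h.choose else fun _ => 0

/-- the distance of two faces -/
noncomputable def dd (T : Temp) (x y : Pt) : ℝ := Real.log (4 * HH (rmap T (cf x)) (rmap T (cf y)))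

end Vale.Agent.P155.BD
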